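import Vale.Agent.P269.Bdl.B1

namespace Vale.Agent.Results.P269.Nef

open Vale.Agent.P269.CI2

theorem result {n : ℕ} (X : Data n) (G : GW X) :
    (X.N + 1 ≤ X.ds.sum → ∀ K g d l, G.vir K g d l = 0) ∧
    ∀ g d, (g = 0 ∨ X.vdim g d ≤ 0 → ∀ K l, G.vir K g d l = 0) ∧
      (∀ V : ℕ, X.vdim g d = V →
        ((∀ K l, G.vir K g d l = 0) ↔ ∀ l, G.vir (V + 1) g d l = 0)) ∧
      (X.reducedSet g d).Finite ∧
      ((∀ K l, G.vir K g d l = 0) ↔ ∀ s ∈ X.reducedSet g d, G.vir (s.1 + 1) g d s.2 = 0) :=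
  ⟨G.vir_nef, fun g d => ⟨fun h K l => h.elim (fun h0 => h0 ▸ G.vir_genus_zero K d l)
    fun h1 => G.vir_of_vdim_le g d h1 K l, G.vir_single g d, X.reducedSet_finite g d,
    G.vir_reduced g d⟩⟩

end Vale.Agent.Results.P269.Nef
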